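import Vale.Agent.P281.H389.LNC.Core
import Vale.Agent.P281.H969.TLN.FibN
import Vale.Agent.P281.H969.TL.Fin
import Vale.Agent.P281.H383.C.All

/-!
# P281, project T-LNC (helper389): everything plugged
-/

noncomputable section

namespace Vale.Agent.P281.H389.LNC

open Vale.Agent.P281

/-- the bounds for the class C -/
theorem boundC : H389.C.BoundCUStmt :=
  H389.C.boundCU H383.C.dglob H737.C.null (H225.TL.vol_of H64.TK.inputs H511.TL.volF)
    (H389.C.sheetBoundA H969.TL.en)

/-- **T-LN for the class C** -/
theorem tlnC : TLNCStmt :=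
  tlnC_of H969.TL.crit H383.Gen.compl H485.Gen.har H737.Gen.exc H364.TD.fibIn H383.U.liftT
    H383.C.cTameOK H969.TLN.fibNStmt H969.TL.famU boundC

end Vale.Agent.P281.H389.LNC
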