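import Vale.Agent.P281.H969.TLN.Core
import Vale.Agent.P281.H383.C.Fin
import Vale.Agent.P281.H389.C.UBnd

/-!
# P281, project T-LNC (helper389): `N`-forms given by units, fractional coefficients, for the class C
-/

open Set Filter Metric Vale.Agent.P281 Vale.Agent.P281.H713
open Vale.Agent.P272.K (Chart IsKahler IsHermitian Cm)
open Vale.Agent.P281.MF Vale.Agent.P281.ISO
open Vale.Agent.P281.H713.TZ
open Vale.Agent.P281.H64.Gen (IsSmallSet NoExc CritStmt ComplStmt HartogsStmt ExcStmt)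
open Vale.Agent.P281.H64.Thin (IsThinSet)
open Vale.Agent.P281.H64.TU (Tame KTame RelFormT HasFormsT)
open Vale.Agent.P281.H969.TL Vale.Agent.P281.H969.TLN
open Vale.Agent.P281.H603.C (Ctx CTame MTame)
open Vale.Agent.P281.H383.C (CTameOKStmt ModKahler mctx mctx_ok exists_good)
open Vale.Agent.P281.H389.C (BoundCUStmt)
open scoped Topology ContDiff Manifold

set_option linter.all false

noncomputable section

namespace Vale.Agent.P281.H389.LNC

/-- **T-LN for the class C**, the goal: `TLNStmt` with `ModKahler (p + d) X` (a modification of `X` is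
Kähler) in place of a Kähler metric on `X`. -/
def TLNCStmt : Prop :=
  ∀ (p d r N : ℕ) (X Y : Type) [TopologicalSpace X] [ChartedSpace (Cm (p + d)) X]
    [TopologicalSpace Y] [ChartedSpace (Cm p) Y] (f : X → Y) (Δ : Set X → ℝ)
    (a : Fin (r + 1) → Fin N → Fin d → Set X → ℤ), 0 < d → 0 < N →
    H511.Surf.IsFibration (Cm (p + d)) (Cm p) f Δ → ModKahler (p + d) X →
    ∀ 𝒟 : Finset (Set X), (∀ D ∈ 𝒟, Δ D ≠ 0 ∧ ∀ s, (cnt (a s) D : ℝ) ≤ N * Δ D) →
    ∀ H₀ : ℕ → Set Y, (∀ k, IsThinSet (Cm p) (H₀ k)) → (∀ y, (∀ k, y ∉ H₀ k) →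
      ∃ (F : Type) (_ : TopologicalSpace F) (_ : ChartedSpace (Cm d) F) (i : F → X),
        H511.Surf.IsFibre (Cm (p + d)) (Cm d) f y i ∧ Function.Injective i ∧
        NGaussRank (p + d) N d i 𝒟 a) →
    ∃ H : ℕ → Set Y, (∀ k, IsThinSet (Cm p) (H k)) ∧ ∀ y, (∀ k, y ∉ H k) →
      ∀ (F : Type) [TopologicalSpace F] [ChartedSpace (Cm d) F] (i : F → X),
        H511.Surf.IsFibre (Cm (p + d)) (Cm d) f y i →
        ((r : ℕ∞) : WithBot ℕ∞) + TZ.S.kodF (p + d) p Δ (id : X → X) f ≤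
            TZ.S.kodX (Cm (p + d)) Δ ∧
          (TZ.S.kodR (Cm (p + d)) (Cm d) i Δ ≤ ((r : ℕ∞) : WithBot ℕ∞) →
            TZ.S.kodR (Cm (p + d)) (Cm d) i Δ + TZ.S.kodF (p + d) p Δ (id : X → X) f ≤
              TZ.S.kodX (Cm (p + d)) Δ ∧
            (NoExc (Cm (p + d)) (Cm p) f → H511.Surf.Q1 (Cm (p + d)) (Cm p) (Cm d) f Δ i))

/-- the inequality, and the good set -/
theorem first_nc (crit : CritStmt) (compl : ComplStmt) (har : HartogsStmt) (exc : ExcStmt)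
    (fi : H64.TD.FibInStmt)
    (lift : H64.TU.LiftTStmt) (tame : CTameOKStmt) (fibN : FibNStmt) (famU : FamUStmt)
    (bound : BoundCUStmt) {p d r N : ℕ} {X Y : Type} [TopologicalSpace X]
    [ChartedSpace (Cm (p + d)) X] [TopologicalSpace Y] [ChartedSpace (Cm p) Y] {f : X → Y}
    {Δ : Set X → ℝ} {a : Fin (r + 1) → Fin N → Fin d → Set X → ℤ} (hd : 0 < d) (hN : 0 < N)
    (h : H511.Surf.IsFibration (Cm (p + d)) (Cm p) f Δ)
    (hX : ModKahler (p + d) X)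
    {𝒟 : Finset (Set X)} (h𝒟Δ : ∀ D ∈ 𝒟, Δ D ≠ 0 ∧ ∀ s, (cnt (a s) D : ℝ) ≤ N * Δ D)
    {H₀ : ℕ → Set Y}
    (hH₀ : ∀ k, IsThinSet (Cm p) (H₀ k)) (hgr : ∀ y, (∀ k, y ∉ H₀ k) →
      ∃ (F : Type) (_ : TopologicalSpace F) (_ : ChartedSpace (Cm d) F) (i : F → X),
        H511.Surf.IsFibre (Cm (p + d)) (Cm d) f y i ∧ Function.Injective i ∧
        NGaussRank (p + d) N d i 𝒟 a) :
    ∃ S : Set Y, IsSmallSet (Cm p) S ∧ H64.IsProperFibration (n := p + d) (p := p) f S ∧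
      ((r : ℕ∞) : WithBot ℕ∞) + TZ.S.kodF (p + d) p Δ (id : X → X) f ≤
        TZ.S.kodX (Cm (p + d)) Δ := by
  classical
  have : T2Space X := h.hausdorff.1
  have : T2Space Y := h.hausdorff.2
  have : CompactSpace X := h.compact
  have : ConnectedSpace X := h.connected
  have : IsManifold 𝓘(ℂ, Cm (p + d)) ω X := h.manifold.1
  have : IsManifold 𝓘(ℂ, Cm p) ω Y := h.manifold.2
  have hsurj : Function.Surjective f := fun y => (h.fibres y).nonempty
  have : PreconnectedSpace Y := by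
    rw [preconnectedSpace_iff_univ, ← hsurj.range_eq]
    exact isPreconnected_range h.hol.continuous
  have : Nonempty Y := by
    obtain ⟨x⟩ : Nonempty X := inferInstance
    exact ⟨f x⟩
  have hprime : ∀ D ∈ 𝒟, J.IsPrime (Cm (p + d)) D := fun D hD =>
    h.snc.2.1 D (h𝒟Δ D hD).1
  have hΔ0 : ∀ D, 0 ≤ Δ D := fun D => by
    obtain ⟨c, h1, h2, -⟩ := h.snc.2.2.1 D
    rw [h1]
    exact_mod_cast h2
  obtain ⟨X₁, _, _, u, hu, w, hw⟩ := hX
  have : T2Space X₁ := hu.1.2.1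
  have : IsManifold 𝓘(ℂ, Cm (p + d)) ω X₁ := hu.1.2.2.2
  have : CompactSpace X₁ := by
    refine ⟨?_⟩
    have h1 := hu.2.2.1.isCompact_preimage (isCompact_univ (X := X))
    rwa [preimage_univ] at h1
  obtain ⟨w₀, hw₀⟩ := P285.R7.H877.exists_herm (p + d) X
  obtain ⟨S₁, hS₁, hP, hgood⟩ := exists_good (w := w) crit compl har exc h hu
  have hok := mctx_ok exc h.hol hu hw
  obtain ⟨S₂, h12, hS₂, hne⟩ := fibIn_fin fi hd h.hol hP hS₁ 𝒟 hprime
  have hP₂ := hP S₂ h12 hS₂.1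
  have hLR : ∀ y ∉ S₂, (∀ k, y ∉ H₀ k) → NRankAt (n := p + d) N d f 𝒟 a y := by
    intro y hy hyH
    obtain ⟨F, tF, cF, i, hi, hinj, hg⟩ := hgr y hyH
    exact fibN p d r N X Y F f S₂ 𝒟 a i y hd h.hol hS₂.1 hP₂ hprime hne hy hi hinj hg
  have hfreq : ∀ s i b, ∀ y ∉ S₂,
      ∃ᶠ y' in 𝓝 y, ∃ U, IsUnitAt (Cm (p + d)) f 𝒟 (a s i b) y' U := by
    intro s i b y hy
    have h1 : H64.Gen.Cov p (⋃ k, H₀ k) := ⟨H₀, hH₀, subset_rfl⟩
    have h2 : ∃ᶠ y' in 𝓝 y, y' ∈ (⋃ k, H₀ k)ᶜ := mem_closure_iff_frequently.1 (h1.dense_compl y)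
    refine (h2.and_eventually (hS₂.1.isOpen_compl.mem_nhds hy)).mono ?_
    rintro y' ⟨h3, h4⟩
    obtain ⟨U, hU, -⟩ := hLR y' h4 fun k hk => h3 (mem_iUnion.2 ⟨k, hk⟩)
    exact ⟨U s i b, hU s i b⟩
  have hfam := fun s i b => famU p d X Y f S₂ w₀ 𝒟 (a s i b) hd hw₀ h.hol hS₂.1 hP₂
    hprime hne (hfreq s i b)
  have hbd := fun s i b =>
    bound p d X Y f (mctx f u w) S₂ S₂ 𝒟 (a s i b) hd hok (hgood S₂ h12 hS₂) hprime hne
  have hL : LFam (Cm (p + d)) (Cm p) f S₂ 𝒟 :=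
    { hol := fun x => h.hol.contMDiffAt
      closed := hS₂.1
      sub := hP₂.submersive
      conn := fun y hy => (hP₂.connected y hy).isPreconnected
      cpt := fun y hy => hP₂.proper {y} isCompact_singleton (by simpa using hy)
      prime := hprime
      not_sub := hne }
  let e₀ : Cm (p + d) ≃L[ℂ] (Cm p × Cm d) := ContinuousLinearEquiv.ofFinrankEq (by
    simp)
  set S' : Set Y := {y | y ∈ S₂ ∨ ¬ NRankAt (n := p + d) N d f 𝒟 a y} with hS'
  have hsub : S₂ ⊆ S' := fun y hy => Or.inl hy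
  have hcl : IsClosed S' := by
    rw [← isOpen_compl_iff, isOpen_iff_mem_nhds]
    intro y hy
    have h1 : y ∉ S₂ := fun h2 => hy (Or.inl h2)
    have h2 : NRankAt (n := p + d) N d f 𝒟 a y := by
      by_contra h3
      exact hy (Or.inr h3)
    filter_upwards [hS₂.1.isOpen_compl.mem_nhds h1, nrank_open hL hN e₀ hfam h1 h2] with y' h3 h4 h5
    rcases h5 with h5 | h5
    · exact h3 h5
    · exact h5 h4
  have hsmall : IsSmallSet (Cm p) S' := by
    obtain ⟨H₂, hH₂, hsub₂⟩ := hS₂.2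
    obtain ⟨H, hH, hHs⟩ := two_seq hH₂ hH₀
    refine ⟨hcl, H, hH, fun y hy => hHs ?_⟩
    rcases hy with hy | hy
    · exact Or.inl (hsub₂ hy)
    · by_cases hyS : y ∈ S₂
      · exact Or.inl (hsub₂ hyS)
      · right
        by_contra h1
        exact hy (hLR y hyS fun k hk => h1 (mem_iUnion.2 ⟨k, hk⟩))
  have hP' := hP S' (h12.trans hsub) hcl
  refine ⟨S', hsmall, hP', ?_⟩
  refine H303.UF.first_of fun j₂ h₂ => ?_
  exact lift (p + d) p X Y (Cm d) (CTame u w) f S' e₀ Δ r j₂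
    (tame (p + d) d X X₁ u w hu.2.1 hw.toIsHermitian) h.hol hsmall hP'.submersive h.snc
    (fun y hy => hasForms_mono hsub (hasNStmt p d r N X Y (CTame u w) f S₂ 𝒟 a e₀ Δ hd hN h.hol
      hS₂.1 hP₂ hprime hne hΔ0 (fun D hD => (h𝒟Δ D hD).2) hfam hbd y (fun h3 => hy (Or.inl h3))
      (by
        by_contra h3
        exact hy (Or.inr h3)))) h₂

/-- **T-LNC** from the blocks -/
theorem tlnC_of (crit : CritStmt) (compl : ComplStmt) (har : HartogsStmt) (exc : ExcStmt)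
    (fi : H64.TD.FibInStmt)
    (lift : H64.TU.LiftTStmt) (tame : CTameOKStmt) (fibN : FibNStmt) (famU : FamUStmt)
    (bound : BoundCUStmt) : TLNCStmt := by
  intro p d r N X Y _ _ _ _ f Δ a hd hN h hX 𝒟 h𝒟Δ H₀ hH₀ hgr
  have : T2Space X := h.hausdorff.1
  have : T2Space Y := h.hausdorff.2
  have : CompactSpace X := h.compact
  have : ConnectedSpace X := h.connected
  have : IsManifold 𝓘(ℂ, Cm (p + d)) ω X := h.manifold.1
  have : IsManifold 𝓘(ℂ, Cm p) ω Y := h.manifold.2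
  obtain ⟨S, hS, hP, h1⟩ :=
    first_nc crit compl har exc fi lift tame fibN famU bound hd hN h hX h𝒟Δ hH₀ hgr
  obtain ⟨H, hH, hsub⟩ := hS.2
  refine ⟨H, hH, fun y hy F _ _ i hi => ⟨h1, fun hk => ?_⟩⟩
  have hyS : y ∉ S := by
    intro h2
    obtain ⟨k, hk⟩ := mem_iUnion.1 (hsub h2)
    exact hy k hk
  have h2 := H64.TK.finish h.hol h.fibres h.snc hP hyS hi ((add_le_add hk le_rfl).trans h1)
  exact ⟨h2.1.1, h2.2⟩

end Vale.Agent.P281.H389.LNC
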